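import Vale.Agent.P321.Defs
import Vale.Agent.P321.Final
import Vale.Agent.P321.UpFinal

namespace Vale.Agent.Results.P321.Quasipoly

open Vale.Agent.P321

/-- Worst-case trace reconstruction needs at least `n ^ (c log log n)` traces, and
`exp ((log n) ^ C)` traces suffice. -/
theorem result : ∃ c : ℝ, 0 < c ∧ ∃ C : ℕ, ∀ q : ℝ, 0 < q → q < 1 → ∃ N : ℕ, ∀ n : ℕ, N ≤ n →
    (∀ (m : ℕ) (est : (Fin m → List Bool) → PMF (Fin n → Bool)),
      (∀ x, 2 / 3 ≤ successProb q est x) → (n : ℝ) ^ (c * Real.log (Real.log n)) ≤ m) ∧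
    ∃ (m : ℕ) (est : (Fin m → List Bool) → PMF (Fin n → Bool)),
      (∀ x, 2 / 3 ≤ successProb q est x) ∧ (m : ℝ) ≤ Real.exp (Real.log n ^ C) := by
  refine ⟨1 / 2 ^ 17, by positivity, 30, fun q hq0 hq1 => ?_⟩
  obtain ⟨N1, h1⟩ := lower_bound hq0 hq1
  obtain ⟨N2, h2⟩ := upper_bound hq0.le hq1
  refine ⟨max N1 N2, fun n hn => ⟨h1 n (le_of_max_le_left hn), ?_⟩⟩
  obtain ⟨m, est, a, b⟩ := h2 n (le_of_max_le_right hn)
  exact ⟨m, est, b, a⟩

end Vale.Agent.Results.P321.Quasipoly
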