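import Vale.Agent.P321.Defs
import Vale.Agent.P321.Final

namespace Vale.Agent.Results.P321.Superpoly

open Vale.Agent.P321

/-- Worst-case trace reconstruction needs at least `n ^ (c log log n)` traces. -/
theorem result : ∃ c : ℝ, 0 < c ∧ ∀ q : ℝ, 0 < q → q < 1 → ∃ N : ℕ, ∀ n : ℕ, N ≤ n →
    ∀ (m : ℕ) (est : (Fin m → List Bool) → PMF (Fin n → Bool)),
      (∀ x, 2 / 3 ≤ successProb q est x) → (n : ℝ) ^ (c * Real.log (Real.log n)) ≤ m :=
  ⟨1 / 2 ^ 17, by positivity, fun _ hq0 hq1 => lower_bound hq0 hq1⟩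

end Vale.Agent.Results.P321.Superpoly
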